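import Vale.Agent.Lib.P125.Square

namespace Vale.Agent.Results.P125.ClarksonIneq

open Vale.Agent.Lib.P125

/-- If a real normed space has Markov type `p > 0` with constant `K`, then all `x, y` satisfy
`‖x + y‖ ^ p + ‖x - y‖ ^ p ≤ (4 * K ^ p - 2 ^ (p - 1)) * (‖x‖ ^ p + ‖y‖ ^ p)`. -/
theorem result (X : Type*) [NormedAddCommGroup X] [NormedSpace ℝ X] (p K : ℝ) (hp : 0 < p)
    (h : HasMarkovType X p K) (x y : X) :
    ‖x + y‖ ^ p + ‖x - y‖ ^ p ≤ (4 * K ^ p - 2 ^ (p - 1)) * (‖x‖ ^ p + ‖y‖ ^ p) :=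
  clarkson_of_markovType hp h x y

end Vale.Agent.Results.P125.ClarksonIneq
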