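import Vale.Agent.Lib.P125.Gap

namespace Vale.Agent.Results.P125.GapJConvex

open Vale.Agent.Lib.P125

/-- If a real normed space has Markov type `p > 1` with a constant `K < 2 ^ (1 - 1 / p)`,
then it is `J`-convex in the sense of James: for some `n ≥ 2` and `δ > 0`, every `n`-tuple
of vectors of the unit ball admits a cut `k` with
`‖x_1 + ... + x_k - x_(k+1) - ... - x_n‖ ≤ n - δ`. -/
theorem result (X : Type*) [NormedAddCommGroup X] [NormedSpace ℝ X] (p K : ℝ) (hp : 1 < p)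
    (hK : K < 2 ^ (1 - 1 / p)) (h : HasMarkovType X p K) :
    ∃ n : ℕ, 2 ≤ n ∧ ∃ δ : ℝ, 0 < δ ∧ ∀ x : Fin n → X, (∀ i, ‖x i‖ ≤ 1) →
      ∃ k : Fin n, ‖∑ i, (if i ≤ k then x i else -x i)‖ ≤ (n : ℝ) - δ := by
  have hp0 : 0 < p := by linarith
  have hKp : K ^ p < 2 ^ (p - 1) := by
    have h1 : K ^ p < (2 ^ (1 - 1 / p) : ℝ) ^ p := Real.rpow_lt_rpow h.1 hK hp0
    have h2 : ((2 : ℝ) ^ (1 - 1 / p)) ^ p = 2 ^ (p - 1) := by
      rw [← Real.rpow_mul (by norm_num)]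
      congr 1
      field_simp
    rwa [h2] at h1
  exact jconvex_of_markovType hp0 hKp h

end Vale.Agent.Results.P125.GapJConvex
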