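import Vale.Agent.Lib.P125.Transfer

namespace Vale.Agent.Results.P125.JamesTransfer

open Vale.Agent.Lib.P125

/-- Transfer principle. Let `X` be a real normed space with Markov type `p > 0` and constant
`K` which is not `J`-convex in the sense of James (for every `n ≥ 2` and `δ > 0` there are
`x_1, ..., x_n` in the unit ball with `‖x_1 + ... + x_k - x_(k+1) - ... - x_n‖ > n - δ` for
every cut `k`). Then the scalar summing inequality holds with the same constant: for every
stationary reversible finite chain `(π, P)`, every `f : S → ℝ^n`, every time `t ≥ 1` and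
every choice of cuts `κ i j`,
`E |∑_{l ≤ κ} a_l - ∑_{l > κ} a_l| ^ p` at time `t` is at most `K ^ p * t * E (∑_l |a_l|) ^ p`
at time `1`, where `a = f (Z_s) - f (Z_0)` is the displacement. -/
theorem result (X : Type*) [NormedAddCommGroup X] [NormedSpace ℝ X] (p K : ℝ) (hp : 0 < p)
    (h : HasMarkovType X p K)
    (hJ : ∀ n : ℕ, 2 ≤ n → ∀ δ : ℝ, 0 < δ → ∃ x : Fin n → X, (∀ i, ‖x i‖ ≤ 1) ∧
      ∀ k : Fin n, (n : ℝ) - δ < ‖∑ i, (if i ≤ k then x i else -x i)‖)
    (n : ℕ) (S : Type) [Fintype S] [DecidableEq S] (π : S → ℝ) (P : Matrix S S ℝ)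
    (hP : IsRevChain π P) (f : S → Fin n → ℝ) (κ : S → S → Fin n) (t : ℕ) (ht : 1 ≤ t) :
    ∑ i, ∑ j, π i * (P ^ t) i j *
        |∑ l, (if l ≤ κ i j then (f i l - f j l) else -(f i l - f j l))| ^ p
      ≤ K ^ p * (t : ℝ) * ∑ i, ∑ j, π i * P i j * (∑ l, |f i l - f j l|) ^ p :=
  james_transfer hp h hJ n S π P hP f κ t ht

end Vale.Agent.Results.P125.JamesTransfer
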