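import Vale.Agent.Lib.P125.Gap
import Vale.Agent.Lib.P125.Square
import Vale.Agent.Lib.P125.Transfer

namespace Vale.Agent.Results.P125.MarkovTypeGeometry

open Vale.Agent.Lib.P125

/-- Geometry forced by Markov type with a given constant. Let `X` be a real normed space with
Markov type `p > 0` and constant `K`. Then
(1) `‖x + y‖ ^ p + ‖x - y‖ ^ p ≤ (4 * K ^ p - 2 ^ (p - 1)) * (‖x‖ ^ p + ‖y‖ ^ p)` for all
`x, y`;
(2) if `K ^ p < 3 * 2 ^ (p - 3)` then `X` is uniformly non-square;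
(3) if `K < 2 ^ (1 - 1 / p)` then `X` is `J`-convex in the sense of James;
(4) if `X` is not `J`-convex then the scalar summing inequality holds with the same constant
`K` for every stationary reversible finite chain, every `f : S → ℝ^n`, every time `t ≥ 1`
and every choice of cuts. -/
theorem result (X : Type*) [NormedAddCommGroup X] [NormedSpace ℝ X] (p K : ℝ) (hp : 0 < p)
    (h : HasMarkovType X p K) :
    (∀ x y : X,
      ‖x + y‖ ^ p + ‖x - y‖ ^ p ≤ (4 * K ^ p - 2 ^ (p - 1)) * (‖x‖ ^ p + ‖y‖ ^ p)) ∧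
    (K ^ p < 3 * 2 ^ (p - 3) →
      ∃ δ : ℝ, 0 < δ ∧ ∀ x y : X, ‖x‖ ≤ 1 → ‖y‖ ≤ 1 → min ‖x + y‖ ‖x - y‖ ≤ 2 - δ) ∧
    (K < 2 ^ (1 - 1 / p) →
      ∃ n : ℕ, 2 ≤ n ∧ ∃ δ : ℝ, 0 < δ ∧ ∀ x : Fin n → X, (∀ i, ‖x i‖ ≤ 1) →
        ∃ k : Fin n, ‖∑ i, (if i ≤ k then x i else -x i)‖ ≤ (n : ℝ) - δ) ∧
    ((∀ n : ℕ, 2 ≤ n → ∀ δ : ℝ, 0 < δ → ∃ x : Fin n → X, (∀ i, ‖x i‖ ≤ 1) ∧
        ∀ k : Fin n, (n : ℝ) - δ < ‖∑ i, (if i ≤ k then x i else -x i)‖) →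
      ∀ (n : ℕ) (S : Type) [Fintype S] [DecidableEq S] (π : S → ℝ) (P : Matrix S S ℝ),
        IsRevChain π P → ∀ (f : S → Fin n → ℝ) (κ : S → S → Fin n) (t : ℕ), 1 ≤ t →
          ∑ i, ∑ j, π i * (P ^ t) i j *
              |∑ l, (if l ≤ κ i j then (f i l - f j l) else -(f i l - f j l))| ^ p
            ≤ K ^ p * (t : ℝ) * ∑ i, ∑ j, π i * P i j * (∑ l, |f i l - f j l|) ^ p) := by
  refine ⟨fun x y => clarkson_of_markovType hp h x y,
    fun hK => nonsquare_of_markovType hp hK h, fun hK => ?_,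
    fun hJ n S _ _ π P hP f κ t ht => james_transfer hp h hJ n S π P hP f κ t ht⟩
  have hKp : K ^ p < 2 ^ (p - 1) := by
    have h1 : K ^ p < (2 ^ (1 - 1 / p) : ℝ) ^ p := Real.rpow_lt_rpow h.1 hK hp
    have h2 : ((2 : ℝ) ^ (1 - 1 / p)) ^ p = 2 ^ (p - 1) := by
      rw [← Real.rpow_mul (by norm_num)]
      congr 1
      field_simp
    rwa [h2] at h1
  exact jconvex_of_markovType hp hKp h

end Vale.Agent.Results.P125.MarkovTypeGeometry
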